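import Mathlib
import Vale.Agent.P052.Data
import Vale.Agent.P052.Rows
import Vale.Agent.P052.Nbrs

/-! Kernel-checked finite facts about the graph data. The checks run over neighbour lists and are
split into chunks, so that each stays small. -/

namespace Vale.Agent.P052

def adjN (i j : ℕ) : Bool := Nat.testBit (row i) j

def get9 (P i : ℕ) : ℕ := (P >>> (9 * i)) &&& 511

def get2 (P i : ℕ) : ℕ := (P >>> (2 * i)) &&& 3

def part (i : ℕ) : ℕ := get2 partData i

def perm (k : ℕ) : ℕ := match k with
  | 0 => perm0Data
  | 1 => perm1Data
  | _ => perm2Data

def permInv (k : ℕ) : ℕ := match k with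
  | 0 => perm0InvData
  | 1 => perm1InvData
  | _ => perm2InvData

def allBelow (n : ℕ) (p : ℕ → Bool) : Bool := (List.range n).all p

def allFrom (a n : ℕ) (p : ℕ → Bool) : Bool := (List.range n).all fun i => p (a + i)

def cnt (n : ℕ) (p : ℕ → Bool) : ℕ := (List.range n).countP p

def nbList (i : ℕ) : List ℕ := (List.range 100).map (get9 (nbRow i))

def maskOf (l : List ℕ) : ℕ := l.foldl (fun m j => m ||| 2 ^ j) 0

def nbOK (i : ℕ) : Bool := maskOf (nbList i) == row i

def permOK (k : ℕ) : Bool :=
  allBelow 416 fun i =>
    decide (get9 (perm k) i < 416) && decide (get9 (permInv k) i < 416) &&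
    (get9 (permInv k) (get9 (perm k) i) == i) && (get9 (perm k) (get9 (permInv k) i) == i)

def homAt (k i : ℕ) : Bool :=
  (nbList i).all fun j => adjN (get9 (perm k) i) (get9 (perm k) j)

theorem nbOK_a : allFrom 0 208 nbOK = true := by decide +kernel

theorem nbOK_b : allFrom 208 208 nbOK = true := by decide +kernel

theorem permOK0 : permOK 0 = true := by decide +kernel

theorem permOK1 : permOK 1 = true := by decide +kernel

theorem permOK2 : permOK 2 = true := by decide +kernel

theorem hom0a : allFrom 0 208 (homAt 0) = true := by decide +kernel

theorem hom0b : allFrom 208 208 (homAt 0) = true := by decide +kernel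

theorem hom1a : allFrom 0 208 (homAt 1) = true := by decide +kernel

theorem hom1b : allFrom 208 208 (homAt 1) = true := by decide +kernel

theorem hom2a : allFrom 0 208 (homAt 2) = true := by decide +kernel

theorem hom2b : allFrom 208 208 (homAt 2) = true := by decide +kernel

theorem fix0 : (get9 perm0Data 0 == 0 && get9 perm1Data 0 == 0) = true := by decide +kernel

theorem tree0 : (allBelow 416 fun x => x == 0 ||
    (decide (get9 parent0Data x < 416) && decide (get2 gen0Data x < 3) &&
      decide (get9 rank0Data (get9 parent0Data x) < get9 rank0Data x) &&
      (get9 (perm (get2 gen0Data x)) (get9 parent0Data x) == x))) = true := by decide +kernel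

theorem tree1 : (allBelow 416 fun x => !(adjN 0 x) || x == 1 ||
    (decide (get9 parent1Data x < 416) && decide (get2 gen1Data x < 2) &&
      adjN 0 (get9 parent1Data x) &&
      decide (get9 rank1Data (get9 parent1Data x) < get9 rank1Data x) &&
      (get9 (perm (get2 gen1Data x)) (get9 parent1Data x) == x))) = true := by decide +kernel

theorem symm0 : (allBelow 416 fun j => adjN 0 j == adjN j 0) = true := by decide +kernel

theorem srg0 : (adjN 0 0 == false && cnt 416 (fun k => adjN 0 k) == 100) = true := by
  decide +kernel

theorem srg0_common : (allBelow 416 fun j => j == 0 ||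
    (nbList 0).countP (fun k => adjN j k) == if adjN 0 j then 36 else 20) = true := by
  decide +kernel

theorem nbList0_eq : nbList 0 = (List.range 416).filter (fun k => adjN 0 k) := by decide +kernel

theorem commonList_ok : (allBelow 416 fun a =>
    !(adjN 0 a && adjN 1 a) || commonList.contains a) = true := by decide +kernel

theorem noK4 : (commonList.all fun a => commonList.all fun b => !(adjN a b) ||
    commonList.all fun c => !(adjN a c && adjN b c) ||
    commonList.all fun d => !(adjN a d && adjN b d && adjN c d)) = true := by decide +kernel

theorem class1_eq : class1List = (List.range 416).filter (fun k => part k == 1) := by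
  decide +kernel

theorem class2_eq : class2List = (List.range 416).filter (fun k => part k == 2) := by
  decide +kernel

theorem class3_eq : class3List = (List.range 416).filter (fun k => part k == 3) := by
  decide +kernel

theorem eigen : (allBelow 416 fun i =>
    let nA := class1List.countP (fun k => adjN i k)
    let nB := class2List.countP (fun k => adjN i k)
    let nC := class3List.countP (fun k => adjN i k)
    if part i == 1 then nA == 20 && nB == 0 && nC == 0
    else if part i == 2 then nA == 0 && nB == 20 && nC == 0
    else if part i == 3 then nA == 0 && nB == 0 && nC == 20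
    else nA == 8 && nB == 8 && nC == 8) = true := by decide +kernel

theorem part_card : (cnt 416 (fun i => part i == 0) == 320 && cnt 416 (fun i => part i == 1) == 32
    && cnt 416 (fun i => part i == 2) == 32 && cnt 416 (fun i => part i == 3) == 32
    && part specialVertex == 1) = true := by decide +kernel

end Vale.Agent.P052
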