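import Mathlib

/-! From a finite configuration to a failing partition, and raising the dimension by an apex. -/

namespace Vale.Agent.P052

/-- `Bad d k`: a finite configuration in `ℝ^d` with all distances `≤ D` such that every
`k`-colouring has a monochromatic pair at distance `D`. -/
def Bad (d k : ℕ) : Prop :=
  ∃ (ι : Type) (_ : Fintype ι) (x : ι → EuclideanSpace ℝ (Fin d)) (D : ℝ), 0 < D ∧
    (∀ i j, dist (x i) (x j) ≤ D) ∧ ∀ f : ι → Fin k, ∃ i j, f i = f j ∧ dist (x i) (x j) = D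

/-- A `Bad` configuration on a sphere of squared radius below `D^2/2`. -/
def BadOnSphere (d k : ℕ) : Prop :=
  ∃ (ι : Type) (_ : Fintype ι) (x : ι → EuclideanSpace ℝ (Fin d))
    (c : EuclideanSpace ℝ (Fin d)) (R D : ℝ), 0 < D ∧ R < D ^ 2 / 2 ∧
    (∀ i, dist (x i) c ^ 2 = R) ∧
    (∀ i j, dist (x i) (x j) ≤ D) ∧ ∀ f : ι → Fin k, ∃ i j, f i = f j ∧ dist (x i) (x j) = D

lemma BadOnSphere.bad {d k : ℕ} (h : BadOnSphere d k) : Bad d k := by
  obtain ⟨ι, hι, x, c, R, D, hD, -, -, hle, hcol⟩ := h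
  exact ⟨ι, hι, x, D, hD, hle, hcol⟩

/-- Append a last coordinate. -/
def snocPt {d : ℕ} (x : EuclideanSpace ℝ (Fin d)) (a : ℝ) : EuclideanSpace ℝ (Fin (d + 1)) :=
  WithLp.toLp 2 (Fin.snoc (fun i => x i) a)

lemma dist_snocPt_sq {d : ℕ} (x y : EuclideanSpace ℝ (Fin d)) (a b : ℝ) :
    dist (snocPt x a) (snocPt y b) ^ 2 = dist x y ^ 2 + (a - b) ^ 2 := by
  rw [EuclideanSpace.dist_eq, EuclideanSpace.dist_eq, Real.sq_sqrt (by positivity),
    Real.sq_sqrt (by positivity), Fin.sum_univ_castSucc]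
  simp [snocPt, Real.dist_eq, sq_abs]

lemma BadOnSphere.succ {d k : ℕ} (h : BadOnSphere d (k + 1)) :
    BadOnSphere (d + 1) (k + 1 + 1) := by
  obtain ⟨ι, hι, x, c, R, D, hD, hR, hsph, hle, hcol⟩ := h
  obtain ⟨i0, -, -, -⟩ := hcol fun _ => 0
  have hR0 : 0 ≤ R := hsph i0 ▸ sq_nonneg _
  set h := Real.sqrt (D ^ 2 - R) with hh
  have hpos : 0 < D ^ 2 - R := by nlinarith
  have hh2 : h ^ 2 = D ^ 2 - R := Real.sq_sqrt hpos.le
  have hh0 : 0 < h := Real.sqrt_pos.2 hpos
  set t := (h ^ 2 - R) / (2 * h) with ht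
  let x' : Option ι → EuclideanSpace ℝ (Fin (d + 1)) := fun o =>
    o.elim (snocPt c h) fun i => snocPt (x i) 0
  have hapex : ∀ i, dist (x' none) (x' (some i)) = D := by
    intro i
    refine (sq_eq_sq₀ dist_nonneg hD.le).1 ?_
    simp only [x', Option.elim]
    rw [dist_snocPt_sq, dist_comm, hsph]
    linarith
  have hin : ∀ i j, dist (x' (some i)) (x' (some j)) = dist (x i) (x j) := by
    intro i j
    refine (sq_eq_sq₀ dist_nonneg dist_nonneg).1 ?_
    simp only [x', Option.elim]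
    rw [dist_snocPt_sq]
    simp
  refine ⟨Option ι, inferInstance, x', snocPt c t, R + t ^ 2, D, hD, ?_, ?_, ?_, ?_⟩
  · have e : R + t ^ 2 = D ^ 4 / (4 * h ^ 2) := by
      rw [ht]
      field_simp
      rw [hh2]
      ring
    rw [e, div_lt_iff₀ (by positivity)]
    nlinarith
  · intro o
    cases o with
    | some i =>
      simp only [x', Option.elim]
      rw [dist_snocPt_sq, hsph]; ring
    | none =>
      simp only [x', Option.elim]
      rw [dist_snocPt_sq, dist_self, ht]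
      field_simp
      ring
  · intro o o'
    rcases o with _ | i <;> rcases o' with _ | j
    · simp [hD.le]
    · exact (hapex j).le
    · rw [dist_comm]; exact (hapex i).le
    · rw [hin]; exact hle i j
  · intro f
    by_cases hex : ∃ i, f (some i) = f none
    · obtain ⟨i, hi⟩ := hex
      exact ⟨none, some i, hi.symm, hapex i⟩
    push Not at hex
    choose g hg using fun i => Fin.exists_succAbove_eq (hex i)
    obtain ⟨i, j, hij, hd⟩ := hcol g
    exact ⟨some i, some j, by rw [← hg i, ← hg j, hij], by rw [hin, hd]⟩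

lemma Bad.counterexample {d k : ℕ} (h : Bad d (k + 1)) :
    ∃ Y : Set (EuclideanSpace ℝ (Fin d)), Bornology.IsBounded Y ∧ 0 < Metric.diam Y ∧
      ∀ P : Fin (k + 1) → Set (EuclideanSpace ℝ (Fin d)),
        Y = ⋃ i, P i → ∃ i, Metric.diam Y ≤ Metric.diam (P i) := by
  obtain ⟨ι, hι, x, D, hD, hle, hcol⟩ := h
  have hb : Bornology.IsBounded (Set.range x) := (Set.finite_range x).isBounded
  obtain ⟨i0, j0, -, hd0⟩ := hcol fun _ => 0
  have hdiam : Metric.diam (Set.range x) = D := by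
    refine le_antisymm (Metric.diam_le_of_forall_dist_le hD.le ?_) ?_
    · rintro _ ⟨i, rfl⟩ _ ⟨j, rfl⟩; exact hle i j
    · rw [← hd0]; exact Metric.dist_le_diam_of_mem hb ⟨i0, rfl⟩ ⟨j0, rfl⟩
  refine ⟨Set.range x, hb, hdiam.symm ▸ hD, fun P hP => ?_⟩
  have hm : ∀ i, ∃ a, x i ∈ P a := fun i => Set.mem_iUnion.1 (hP ▸ ⟨i, rfl⟩)
  choose f hf using hm
  obtain ⟨i, j, hij, hd⟩ := hcol f
  refine ⟨f i, ?_⟩
  rw [hdiam, ← hd]
  exact Metric.dist_le_diam_of_mem (hb.subset (hP.symm ▸ Set.subset_iUnion P (f i)))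
    (hf i) (hij.symm ▸ hf j)

end Vale.Agent.P052
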