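import Mathlib
import Vale.Agent.P052.Check

/-! Structure of the 416-vertex graph derived from the checked data: transitivity on vertices and
on arcs, the strongly regular identities, and absence of 6-cliques. -/

namespace Vale.Agent.P052

abbrev V := Fin 416

def adj (i j : V) : Bool := adjN i.val j.val

lemma allBelow_iff {n : ℕ} {p : ℕ → Bool} : allBelow n p = true ↔ ∀ x, x < n → p x = true := by
  simp [allBelow, List.all_eq_true]

lemma cnt_eq (n : ℕ) (p : ℕ → Bool) :
    (Finset.univ.filter fun i : Fin n => p i.val = true).card = cnt n p := by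
  induction n with
  | zero => simp [cnt]
  | succ n ih =>
    rw [Finset.card_filter] at ih ⊢
    rw [Fin.sum_univ_castSucc]
    simp only [Fin.val_castSucc, Fin.val_last]
    rw [ih]
    simp [cnt, List.range_succ, List.countP_append, List.countP_singleton]

lemma perm_spec (k : Fin 3) (i : ℕ) (hi : i < 416) :
    get9 (perm k.val) i < 416 ∧ get9 (permInv k.val) i < 416 ∧
    get9 (permInv k.val) (get9 (perm k.val) i) = i ∧
    get9 (perm k.val) (get9 (permInv k.val) i) = i := by
  have hok : permOK k.val = true := by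
    fin_cases k
    · exact permOK0
    · exact permOK1
    · exact permOK2
  have := allBelow_iff.1 hok i hi
  simp only [Bool.and_eq_true, decide_eq_true_eq, beq_iff_eq] at this
  tauto

def gen (k : Fin 3) : Equiv.Perm V where
  toFun i := ⟨get9 (perm k.val) i.val, (perm_spec k i.val i.isLt).1⟩
  invFun i := ⟨get9 (permInv k.val) i.val, (perm_spec k i.val i.isLt).2.1⟩
  left_inv i := Fin.ext (perm_spec k i.val i.isLt).2.2.1
  right_inv i := Fin.ext (perm_spec k i.val i.isLt).2.2.2

lemma allFrom_split {p : ℕ → Bool} (h1 : allFrom 0 208 p = true) (h2 : allFrom 208 208 p = true)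
    (i : ℕ) (hi : i < 416) : p i = true := by
  simp only [allFrom, List.all_eq_true, List.mem_range] at h1 h2
  rcases Nat.lt_or_ge i 208 with h | h
  · simpa using h1 i h
  · simpa [Nat.add_sub_cancel' h] using h2 (i - 208) (by omega)

lemma testBit_maskOf (l : List ℕ) (j : ℕ) : Nat.testBit (maskOf l) j = true ↔ j ∈ l := by
  suffices H : ∀ m, Nat.testBit (l.foldl (fun m j => m ||| 2 ^ j) m) j = true ↔
      Nat.testBit m j = true ∨ j ∈ l by simpa [maskOf] using H 0
  induction l with
  | nil => simp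
  | cons a l ih =>
    intro m
    rw [List.foldl_cons, ih, Nat.testBit_or, Nat.testBit_two_pow, Bool.or_eq_true,
      decide_eq_true_eq, List.mem_cons]
    constructor
    · rintro ((h | h) | h)
      · exact .inl h
      · exact .inr (.inl h.symm)
      · exact .inr (.inr h)
    · rintro (h | h | h)
      · exact .inl (.inl h)
      · exact .inl (.inr h.symm)
      · exact .inr h

lemma mem_nbList {i j : ℕ} (hi : i < 416) : j ∈ nbList i ↔ adjN i j = true := by
  rw [← testBit_maskOf, beq_iff_eq.1 (allFrom_split nbOK_a nbOK_b i hi), adjN]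

lemma gen_adj_forward (k : Fin 3) (i j : V) (h : adj i j = true) :
    adj (gen k i) (gen k j) = true := by
  have h' : homAt k.val i.val = true := by
    fin_cases k
    · exact allFrom_split hom0a hom0b _ i.isLt
    · exact allFrom_split hom1a hom1b _ i.isLt
    · exact allFrom_split hom2a hom2b _ i.isLt
  exact List.all_eq_true.1 h' j.val ((mem_nbList i.isLt).2 h)

lemma gen_pow_forward (k : Fin 3) (n : ℕ) : ∀ i j : V, adj i j = true →
    adj ((gen k ^ n) i) ((gen k ^ n) j) = true := by
  induction n with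
  | zero => simp
  | succ n ih =>
    intro i j h
    rw [pow_succ', Equiv.Perm.mul_apply, Equiv.Perm.mul_apply]
    exact gen_adj_forward k _ _ (ih i j h)

/-- An edge-preserving permutation of a finite graph is an automorphism. -/
lemma gen_adj (k : Fin 3) (i j : V) : adj (gen k i) (gen k j) = adj i j := by
  apply Bool.eq_iff_iff.2
  refine ⟨fun h => ?_, gen_adj_forward k i j⟩
  have h2 := gen_pow_forward k (orderOf (gen k) - 1) _ _ h
  rwa [← Equiv.Perm.mul_apply, ← Equiv.Perm.mul_apply, ← pow_succ,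
    Nat.sub_add_cancel (orderOf_pos (gen k)), pow_orderOf_eq_one] at h2

def IsAut (g : Equiv.Perm V) : Prop := ∀ i j, adj (g i) (g j) = adj i j

lemma isAut_one : IsAut 1 := fun _ _ => rfl

lemma IsAut.mul {g h : Equiv.Perm V} (hg : IsAut g) (hh : IsAut h) : IsAut (g * h) :=
  fun i j => by rw [Equiv.Perm.mul_apply, Equiv.Perm.mul_apply, hg, hh]

lemma IsAut.symm {g : Equiv.Perm V} (hg : IsAut g) (i j : V) :
    adj (g.symm i) (g.symm j) = adj i j := by
  rw [← hg, g.apply_symm_apply, g.apply_symm_apply]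

lemma transitive (x : V) : ∃ g, IsAut g ∧ g 0 = x := by
  suffices H : ∀ r, ∀ x : V, get9 rank0Data x.val = r → ∃ g, IsAut g ∧ g 0 = x from H _ x rfl
  intro r
  induction r using Nat.strong_induction_on with
  | _ r ih =>
    intro x hx
    by_cases h0 : x = 0
    · exact ⟨1, isAut_one, by simp [h0]⟩
    have h := allBelow_iff.1 tree0 x.val x.isLt
    have hx0 : x.val ≠ 0 := fun h => h0 (Fin.ext h)
    simp only [Bool.or_eq_true, Bool.and_eq_true, decide_eq_true_eq, beq_iff_eq, hx0,
      false_or] at h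
    obtain ⟨⟨⟨hp, hg⟩, hr⟩, he⟩ := h
    obtain ⟨g, hgA, hg0⟩ := ih _ (hx ▸ hr) ⟨_, hp⟩ rfl
    refine ⟨gen ⟨_, hg⟩ * g, IsAut.mul (gen_adj _) hgA, ?_⟩
    rw [Equiv.Perm.mul_apply, hg0]
    exact Fin.ext he

lemma transitive_arc (x : V) (hx : adj 0 x = true) :
    ∃ g, IsAut g ∧ g 0 = 0 ∧ g 1 = x := by
  suffices H : ∀ r, ∀ x : V, get9 rank1Data x.val = r → adj 0 x = true →
      ∃ g, IsAut g ∧ g 0 = 0 ∧ g 1 = x from H _ x rfl hx
  intro r
  induction r using Nat.strong_induction_on with
  | _ r ih =>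
    intro x hx ha
    by_cases h1 : x = 1
    · exact ⟨1, isAut_one, rfl, by simp [h1]⟩
    have h := allBelow_iff.1 tree1 x.val x.isLt
    have hx1 : x.val ≠ 1 := fun h => h1 (Fin.ext h)
    have ha' : adjN 0 x.val = true := ha
    simp only [Bool.or_eq_true, Bool.and_eq_true, decide_eq_true_eq, beq_iff_eq,
      Bool.not_eq_true', ha', hx1, Bool.true_eq_false, false_or] at h
    obtain ⟨⟨⟨⟨hp, hg⟩, hap⟩, hr⟩, he⟩ := h
    obtain ⟨g, hgA, hg0, hg1⟩ := ih _ (hx ▸ hr) ⟨_, hp⟩ rfl hap
    refine ⟨gen ⟨get2 gen1Data x.val, by omega⟩ * g, IsAut.mul (gen_adj _) hgA, ?_, ?_⟩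
    · rw [Equiv.Perm.mul_apply, hg0]
      refine Fin.ext ?_
      have hf := fix0
      simp only [Bool.and_eq_true, beq_iff_eq] at hf
      change get9 (perm (get2 gen1Data x.val)) 0 = 0
      interval_cases (get2 gen1Data x.val)
      · exact hf.1
      · exact hf.2
    · rw [Equiv.Perm.mul_apply, hg1]
      exact Fin.ext he

lemma adj_comm (i j : V) : adj i j = adj j i := by
  obtain ⟨g, hg, rfl⟩ := transitive i
  obtain ⟨j', rfl⟩ := g.surjective j
  rw [hg, hg]
  exact beq_iff_eq.1 (allBelow_iff.1 symm0 j'.val j'.isLt)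

lemma srg0' : adj 0 0 = false ∧ cnt 416 (fun k => adjN 0 k) = 100 ∧
    ∀ j : V, j ≠ 0 →
      cnt 416 (fun k => adjN 0 k && adjN j.val k) = if adj 0 j then 36 else 20 := by
  have h := srg0
  simp only [Bool.and_eq_true, beq_iff_eq] at h
  refine ⟨h.1, h.2, fun j hj => ?_⟩
  have h2 := allBelow_iff.1 srg0_common j.val j.isLt
  simp only [Bool.or_eq_true, beq_iff_eq] at h2
  have h3 := h2.resolve_left fun h => hj (Fin.ext h)
  rw [nbList0_eq, List.countP_filter] at h3
  simp only [cnt, Bool.and_comm (adjN 0 _)]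
  exact h3

lemma adj_irrefl (i : V) : adj i i = false := by
  obtain ⟨g, hg, rfl⟩ := transitive i
  rw [hg]; exact srg0'.1

lemma ne_of_adj {i j : V} (h : adj i j = true) : i ≠ j := by
  rintro rfl
  simp [adj_irrefl] at h

lemma degree_eq (i : V) : (Finset.univ.filter fun k => adj i k = true).card = 100 := by
  obtain ⟨g, hg, rfl⟩ := transitive i
  rw [← srg0'.2.1, ← cnt_eq]
  refine Finset.card_equiv g.symm fun k => ?_
  simp only [Finset.mem_filter, Finset.mem_univ, true_and]
  change _ ↔ adj 0 (g.symm k) = true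
  rw [← hg 0, g.apply_symm_apply]

lemma common_eq (i j : V) (h : i ≠ j) :
    (Finset.univ.filter fun k => (adj i k && adj j k) = true).card =
      if adj i j then 36 else 20 := by
  obtain ⟨g, hg, rfl⟩ := transitive i
  obtain ⟨j', rfl⟩ := g.surjective j
  rw [hg, ← srg0'.2.2 j' (fun e => h (by rw [e])), ← cnt_eq]
  refine Finset.card_equiv g.symm fun k => ?_
  simp only [Finset.mem_filter, Finset.mem_univ, true_and]
  change _ ↔ (adj 0 (g.symm k) && adj j' (g.symm k)) = true
  rw [← hg 0, ← hg j', g.apply_symm_apply]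

lemma no_four {a b c d : V} (ha : adj 0 a && adj 1 a) (hb : adj 0 b && adj 1 b)
    (hc : adj 0 c && adj 1 c) (hd : adj 0 d && adj 1 d)
    (hab : adj a b) (hac : adj a c) (hbc : adj b c)
    (had : adj a d) (hbd : adj b d) (hcd : adj c d) : False := by
  have mem : ∀ x : V, (adj 0 x && adj 1 x) = true → x.val ∈ commonList := by
    intro x hx
    have h := allBelow_iff.1 commonList_ok x.val x.isLt
    have hx' : (adjN 0 x.val && adjN 1 x.val) = true := hx
    simpa [hx'] using h
  have h := noK4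
  simp only [List.all_eq_true, Bool.or_eq_true, Bool.not_eq_true', Bool.and_eq_false_iff] at h
  have hab' : adjN a.val b.val = true := hab
  have hac' : adjN a.val c.val = true := hac
  have hbc' : adjN b.val c.val = true := hbc
  have had' : adjN a.val d.val = true := had
  have hbd' : adjN b.val d.val = true := hbd
  have hcd' : adjN c.val d.val = true := hcd
  have h1 := ((h _ (mem a ha) _ (mem b hb)).resolve_left (by simp [hab'])) _ (mem c hc)
  have h2 := (h1.resolve_left (by simp [hac', hbc'])) _ (mem d hd)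
  simp [had', hbd', hcd'] at h2

theorem clique_card_le (s : Finset V)
    (hs : ∀ i ∈ s, ∀ j ∈ s, i ≠ j → adj i j = true) : s.card ≤ 5 := by
  by_contra hcon
  obtain ⟨a, ha, b, hb, hab⟩ := Finset.one_lt_card.1 (show 1 < s.card by omega)
  obtain ⟨g, hg, rfl⟩ := transitive a
  have hb' : adj 0 (g.symm b) = true := by
    rw [← hg 0, g.apply_symm_apply]; exact hs _ ha _ hb hab
  obtain ⟨h, hh, h0, h1⟩ := transitive_arc _ hb'
  have hτ : IsAut (g * h) := hg.mul hh
  have ht0 : (g * h) 0 = g 0 := by rw [Equiv.Perm.mul_apply, h0]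
  have ht1 : (g * h) 1 = b := by rw [Equiv.Perm.mul_apply, h1, g.apply_symm_apply]
  set u := ((s.erase (g 0)).erase b).image (g * h).symm with hu
  have hucard : 4 ≤ u.card := by
    rw [hu, Finset.card_image_of_injective _ (g * h).symm.injective]
    rw [Finset.card_erase_of_mem (Finset.mem_erase.2 ⟨hab.symm, hb⟩),
      Finset.card_erase_of_mem ha]
    omega
  have hmem : ∀ x ∈ u, (g * h) x ∈ s ∧ (g * h) x ≠ g 0 ∧ (g * h) x ≠ b := by
    intro x hx
    simp only [hu, Finset.mem_image, Finset.mem_erase] at hx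
    obtain ⟨y, ⟨h2, h3, h4⟩, rfl⟩ := hx
    rw [Equiv.apply_symm_apply]
    exact ⟨h4, h3, h2⟩
  have hcommon : ∀ x ∈ u, (adj 0 x && adj 1 x) = true := by
    intro x hx
    obtain ⟨h2, h3, h4⟩ := hmem x hx
    rw [← hτ 0 x, ← hτ 1 x, ht0, ht1, hs _ ha _ h2 h3.symm, hs _ hb _ h2 h4.symm]
    rfl
  have hpair : ∀ x ∈ u, ∀ y ∈ u, x ≠ y → adj x y = true := by
    intro x hx y hy hxy
    rw [← hτ x y]
    exact hs _ (hmem x hx).1 _ (hmem y hy).1 fun e => hxy ((g * h).injective e)
  obtain ⟨t, htu, htc⟩ := Finset.exists_subset_card_eq hucard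
  obtain ⟨x, y, z, w, hxy, hxz, hxw, hyz, hyw, hzw, rfl⟩ := Finset.card_eq_four.1 htc
  simp only [Finset.insert_subset_iff, Finset.singleton_subset_iff] at htu
  obtain ⟨hx, hy, hz, hw⟩ := htu
  exact no_four (hcommon _ hx) (hcommon _ hy) (hcommon _ hz) (hcommon _ hw)
    (hpair _ hx _ hy hxy) (hpair _ hx _ hz hxz) (hpair _ hy _ hz hyz)
    (hpair _ hx _ hw hxw) (hpair _ hy _ hw hyw) (hpair _ hz _ hw hzw)

end Vale.Agent.P052
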