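import Mathlib
import Vale.Agent.P052.Graph

/-! The projection of rank 63 and the resulting points of `ℝ^63`. -/

namespace Vale.Agent.P052

open Matrix

lemma part_lt (i : ℕ) : part i < 4 := by
  have : part i ≤ 3 := Nat.and_le_right
  omega

def p4 (i : V) : Fin 4 := ⟨part i.val, part_lt _⟩

def qv (a b : Fin 4) : ℝ := if a = 0 ∨ b = 0 then 0 else if a = b then 2 else -1

noncomputable def Amat : Matrix V V ℝ := Matrix.of fun i j => if adj i j then 1 else 0

noncomputable def Jmat : Matrix V V ℝ := Matrix.of fun _ _ => 1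

noncomputable def Qmat : Matrix V V ℝ := Matrix.of fun i j => qv (p4 i) (p4 j)

noncomputable def Nmat : Matrix V V ℝ := (4 : ℝ) • Amat + (16 : ℝ) • 1 - Jmat

noncomputable def Kmat : Matrix V V ℝ := Nmat - Qmat

lemma A_transpose : Amatᵀ = Amat := by
  ext i j; simp [Amat, adj_comm]

lemma J_transpose : Jmatᵀ = Jmat := rfl

lemma qv_comm (a b : Fin 4) : qv a b = qv b a := by
  simp only [qv, or_comm, eq_comm]

lemma Q_transpose : Qmatᵀ = Qmat := by
  ext i j; simp [Qmat, qv_comm]

lemma class_card (t : Fin 4) :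
    ((Finset.univ.filter fun i : V => p4 i = t).card : ℝ) = if t = 0 then 320 else 32 := by
  have h := part_card
  simp only [Bool.and_eq_true, beq_iff_eq] at h
  have e : (Finset.univ.filter fun i : V => p4 i = t).card = cnt 416 (fun i => part i == t.val) := by
    rw [← cnt_eq]; congr 1; ext i; simp [p4, Fin.ext_iff]
  rw [e]
  obtain ⟨⟨⟨⟨h0, h1⟩, h2⟩, h3⟩, -⟩ := h
  fin_cases t <;> simp [h0, h1, h2, h3]

lemma nbr_class (i : V) (t : Fin 4) (ht : t ≠ 0) :
    ((Finset.univ.filter fun k : V => adj i k = true ∧ p4 k = t).card : ℝ) =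
      if p4 i = 0 then 8 else if p4 i = t then 20 else 0 := by
  have h := allBelow_iff.1 eigen i.val i.isLt
  have e : (Finset.univ.filter fun k : V => adj i k = true ∧ p4 k = t).card =
      cnt 416 (fun k => adjN i.val k && part k == t.val) := by
    rw [← cnt_eq]; congr 1; ext k; simp [p4, Fin.ext_iff, adj]
  rw [e]
  simp only [class1_eq, class2_eq, class3_eq, List.countP_filter] at h
  have hval : part i.val = (p4 i).val := rfl
  simp only [hval] at h
  generalize p4 i = a at h
  fin_cases a <;> fin_cases t <;> simp_all [Fin.ext_iff, cnt]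

lemma A_mul_Q : Amat * Qmat = (20 : ℝ) • Qmat := by
  ext i j
  simp only [Matrix.mul_apply, Matrix.smul_apply, smul_eq_mul, Amat, Qmat, Matrix.of_apply,
    ite_mul, one_mul, zero_mul]
  rw [← Finset.sum_filter, ← Finset.sum_fiberwise' _ p4 (fun t => qv t (p4 j))]
  simp only [Finset.filter_filter, Finset.sum_const, nsmul_eq_mul, Fin.sum_univ_four]
  rw [show qv 0 (p4 j) = 0 by simp [qv], mul_zero, zero_add]
  rw [nbr_class i 1 (by decide), nbr_class i 2 (by decide), nbr_class i 3 (by decide)]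
  generalize p4 i = a
  generalize p4 j = b
  fin_cases a <;> fin_cases b <;> norm_num [qv, Fin.ext_iff]

lemma Q_mul_Q : Qmat * Qmat = (96 : ℝ) • Qmat := by
  ext i j
  simp only [Matrix.mul_apply, Matrix.smul_apply, smul_eq_mul, Qmat, Matrix.of_apply]
  rw [← Finset.sum_fiberwise' _ p4 (fun t => qv (p4 i) t * qv t (p4 j))]
  simp only [Finset.sum_const, nsmul_eq_mul, Fin.sum_univ_four, class_card]
  generalize p4 i = a
  generalize p4 j = b
  fin_cases a <;> fin_cases b <;> norm_num [qv, Fin.ext_iff]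

lemma J_mul_Q : Jmat * Qmat = 0 := by
  ext i j
  simp only [Matrix.mul_apply, Matrix.zero_apply, Jmat, Qmat, Matrix.of_apply, one_mul]
  rw [← Finset.sum_fiberwise' _ p4 (fun t => qv t (p4 j))]
  simp only [Finset.sum_const, nsmul_eq_mul, Fin.sum_univ_four, class_card]
  generalize p4 j = b
  fin_cases b <;> norm_num [qv, Fin.ext_iff]

lemma Q_mul_A : Qmat * Amat = (20 : ℝ) • Qmat := by
  rw [← Matrix.transpose_inj, Matrix.transpose_mul, A_transpose, Matrix.transpose_smul,
    Q_transpose, A_mul_Q]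

lemma Q_mul_J : Qmat * Jmat = 0 := by
  rw [← Matrix.transpose_inj, Matrix.transpose_mul, J_transpose, Q_transpose, J_mul_Q,
    Matrix.transpose_zero]

lemma J_mul_J : Jmat * Jmat = (416 : ℝ) • Jmat := by
  ext i j; simp [Matrix.mul_apply, Jmat]

lemma A_mul_J : Amat * Jmat = (100 : ℝ) • Jmat := by
  ext i j
  simp only [Matrix.mul_apply, Matrix.smul_apply, smul_eq_mul, Amat, Jmat, Matrix.of_apply,
    mul_one]
  rw [Finset.sum_boole, degree_eq]
  norm_num

lemma J_mul_A : Jmat * Amat = (100 : ℝ) • Jmat := by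
  rw [← Matrix.transpose_inj, Matrix.transpose_mul, A_transpose, Matrix.transpose_smul,
    J_transpose, A_mul_J]

lemma A_mul_A : Amat * Amat = (80 : ℝ) • 1 + (16 : ℝ) • Amat + (20 : ℝ) • Jmat := by
  ext i j
  have e : ∀ k : V, (if adj i k then (1 : ℝ) else 0) * (if adj k j then 1 else 0) =
      if (adj i k && adj j k) = true then 1 else 0 := by
    intro k
    rw [adj_comm k j]
    cases adj i k <;> cases adj j k <;> simp
  simp only [Matrix.mul_apply, Matrix.add_apply, Matrix.smul_apply, smul_eq_mul, Amat, Jmat,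
    Matrix.of_apply, e, Finset.sum_boole]
  by_cases h : i = j
  · subst h
    simp only [Bool.and_self, degree_eq, adj_irrefl, Matrix.one_apply_eq]
    norm_num
  · rw [common_eq i j h, Matrix.one_apply_ne h]
    cases adj i j <;> norm_num

lemma N_mul_N : Nmat * Nmat = (96 : ℝ) • Nmat := by
  simp only [Nmat, add_mul, sub_mul, mul_add, mul_sub, smul_mul_assoc, mul_smul_comm,
    Matrix.one_mul, Matrix.mul_one, A_mul_A, A_mul_J, J_mul_A, J_mul_J, smul_smul, smul_add,
    smul_sub]
  module

lemma N_mul_Q : Nmat * Qmat = (96 : ℝ) • Qmat := by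
  simp only [Nmat, add_mul, sub_mul, smul_mul_assoc, Matrix.one_mul, A_mul_Q, J_mul_Q, smul_smul]
  module

lemma Q_mul_N : Qmat * Nmat = (96 : ℝ) • Qmat := by
  simp only [Nmat, mul_add, mul_sub, mul_smul_comm, Matrix.mul_one, Q_mul_A, Q_mul_J, smul_smul]
  module

lemma K_mul_K : Kmat * Kmat = (96 : ℝ) • Kmat := by
  simp only [Kmat, sub_mul, mul_sub, N_mul_N, N_mul_Q, Q_mul_N, Q_mul_Q, smul_sub]
  module

lemma K_transpose : Kmatᵀ = Kmat := by
  simp [Kmat, Nmat, Matrix.transpose_sub, Matrix.transpose_add, Matrix.transpose_smul,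
    A_transpose, Q_transpose, J_transpose]

lemma K_apply (i j : V) : Kmat i j = 4 * (if adj i j then 1 else 0) +
    16 * (if i = j then 1 else 0) - 1 - qv (p4 i) (p4 j) := by
  simp [Kmat, Nmat, Amat, Jmat, Qmat, Matrix.one_apply]

lemma K_trace : Kmat.trace = 6048 := by
  simp only [Matrix.trace, Matrix.diag, K_apply, adj_irrefl]
  rw [← Finset.sum_fiberwise' _ p4
    (fun t => 4 * (if false = true then (1 : ℝ) else 0) + 16 * (if True then 1 else 0) - 1 - qv t t)]
  simp only [Finset.sum_const, nsmul_eq_mul, Fin.sum_univ_four, class_card]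
  norm_num [qv, Fin.ext_iff]

noncomputable def stdB : Module.Basis V ℝ (EuclideanSpace ℝ V) :=
  (EuclideanSpace.basisFun V ℝ).toBasis

noncomputable def proj : EuclideanSpace ℝ V →ₗ[ℝ] EuclideanSpace ℝ V :=
  Matrix.toLin stdB stdB ((1 / 96 : ℝ) • Kmat)

lemma proj_apply (x : EuclideanSpace ℝ V) (k : V) :
    proj x k = (1 / 96 : ℝ) * ∑ j, Kmat k j * x j := by
  simp [proj, stdB, Matrix.toLin_apply, Matrix.mulVec, dotProduct, Finset.mul_sum,
    EuclideanSpace.basisFun_apply, Pi.single_apply]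

lemma scaled_idem :
    ((1 / 96 : ℝ) • Kmat) * ((1 / 96 : ℝ) • Kmat) = (1 / 96 : ℝ) • Kmat := by
  rw [smul_mul_smul_comm, K_mul_K, smul_smul, show (1 / 96 : ℝ) * (1 / 96) * 96 = 1 / 96 by norm_num]

lemma proj_idem (x : EuclideanSpace ℝ V) : proj (proj x) = proj x := by
  have h : proj ∘ₗ proj = proj :=
    (Matrix.toLin_mul stdB stdB stdB _ _).symm.trans (congrArg (Matrix.toLin stdB stdB) scaled_idem)
  exact LinearMap.congr_fun h x

lemma finrank_range : Module.finrank ℝ (LinearMap.range proj) = 63 := by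
  have h : LinearMap.IsProj (LinearMap.range proj) proj :=
    ⟨fun x => LinearMap.mem_range_self _ x, fun x hx => by
      obtain ⟨y, rfl⟩ := hx; exact proj_idem y⟩
  have h1 := h.trace
  have h2 : LinearMap.trace ℝ _ proj = ((1 / 96 : ℝ) • Kmat).trace := by
    rw [LinearMap.trace_eq_matrix_trace ℝ stdB, proj, LinearMap.toMatrix_toLin]
  rw [h2, Matrix.trace_smul, K_trace, smul_eq_mul] at h1
  have h3 : ((Module.finrank ℝ (LinearMap.range proj) : ℕ) : ℝ) = 63 := by
    rw [← h1]; norm_num
  exact_mod_cast h3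

noncomputable def col (i : V) : EuclideanSpace ℝ V := WithLp.toLp 2 (fun k => Kmat k i)

lemma col_mem (i : V) : col i ∈ LinearMap.range proj := by
  refine ⟨col i, ?_⟩
  ext k
  rw [proj_apply]
  have h : (Kmat * Kmat) k i = 96 * Kmat k i := by rw [K_mul_K]; rfl
  rw [Matrix.mul_apply] at h
  simp only [col]
  rw [h]; ring

noncomputable def coords : LinearMap.range proj ≃ₗᵢ[ℝ] EuclideanSpace ℝ (Fin 63) :=
  ((stdOrthonormalBasis ℝ (LinearMap.range proj)).reindex (finCongr finrank_range)).repr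

noncomputable def pt (i : V) : EuclideanSpace ℝ (Fin 63) := coords ⟨col i, col_mem i⟩

lemma inner_pt (i j : V) : @inner ℝ _ _ (pt i) (pt j) = 96 * Kmat i j := by
  rw [pt, pt, LinearIsometryEquiv.inner_map_map, Submodule.coe_inner]
  have h : (Kmat * Kmat) i j = 96 * Kmat i j := by rw [K_mul_K]; rfl
  rw [← h, Matrix.mul_apply, PiLp.inner_apply]
  refine Finset.sum_congr rfl fun k _ => ?_
  have hT : Kmat k i = Kmat i k := by
    conv_lhs => rw [← K_transpose]
    rfl
  simp [col, hT, mul_comm]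

lemma norm_sub_smul (s t : ℝ) (i j : V) :
    ‖s • pt i - t • pt j‖ ^ 2 =
      96 * (s ^ 2 * Kmat i i + t ^ 2 * Kmat j j - 2 * s * t * Kmat i j) := by
  rw [← real_inner_self_eq_norm_sq]
  simp only [inner_sub_left, inner_sub_right, real_inner_smul_left, real_inner_smul_right,
    inner_pt]
  have hT : Kmat j i = Kmat i j := by
    conv_lhs => rw [← K_transpose]
    rfl
  rw [hT]; ring

end Vale.Agent.P052
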