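import Mathlib
import Vale.Agent.P052.Spectral
import Vale.Agent.P052.Lift

/-! The configurations: 321 points in `ℝ^63` and 352 points on a sphere in `ℝ^64`. -/

namespace Vale.Agent.P052

lemma colour_pair {ι : Type} [Fintype ι] {k d : ℕ} (v : ι → V) (hv : Function.Injective v)
    (x : ι → EuclideanSpace ℝ (Fin d)) (D : ℝ) (hcard : 5 * k < Fintype.card ι)
    (hfar : ∀ i j, i ≠ j → adj (v i) (v j) = false → dist (x i) (x j) = D)
    (f : ι → Fin k) : ∃ i j, f i = f j ∧ dist (x i) (x j) = D := by
  by_contra hcon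
  push Not at hcon
  have hc : ∀ a : Fin k, (Finset.univ.filter fun i => f i = a).card ≤ 5 := by
    intro a
    rw [← Finset.card_image_of_injective _ hv]
    refine clique_card_le _ ?_
    intro p hp q hq hpq
    simp only [Finset.mem_image, Finset.mem_filter, Finset.mem_univ, true_and] at hp hq
    obtain ⟨i, hi, rfl⟩ := hp
    obtain ⟨j, hj, rfl⟩ := hq
    by_contra hn
    exact hcon i j (hi.trans hj.symm)
      (hfar i j (fun e => hpq (congrArg v e)) (Bool.eq_false_iff.2 hn))
  have h := Finset.card_le_mul_card_image_of_maps_to (f := f) (s := Finset.univ)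
    (t := Finset.univ) (fun _ _ => Finset.mem_univ _) 5 (fun a _ => hc a)
  simp only [Finset.card_univ, Fintype.card_fin] at h
  omega

lemma p4_special : p4 (⟨specialVertex, by decide⟩ : V) = 1 := by
  have h := part_card
  simp only [Bool.and_eq_true, beq_iff_eq] at h
  exact Fin.ext h.2

def v0 : V := ⟨specialVertex, by decide⟩

def mem63 (i : V) : Bool := decide (p4 i = 0) || decide (i = v0)

def mem64 (i : V) : Bool := decide (p4 i = 0) || decide (p4 i = 3)

noncomputable def lam : ℝ := (Real.sqrt 222 - 1) / 13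

lemma lam_eq : 13 * lam ^ 2 + 2 * lam - 17 = 0 := by
  have h : Real.sqrt 222 ^ 2 = 222 := Real.sq_sqrt (by norm_num)
  simp only [lam]
  field_simp
  nlinarith

lemma lam_pos : 0 < lam := by
  have h : 1 < Real.sqrt 222 := by
    rw [Real.lt_sqrt] <;> norm_num
  exact div_pos (by linarith) (by norm_num)

noncomputable def pt63 (i : V) : EuclideanSpace ℝ (Fin 63) :=
  (if i = v0 then lam else 1) • pt i

lemma K_diag (i : V) : Kmat i i = 15 - qv (p4 i) (p4 i) := by
  rw [K_apply, adj_irrefl]; norm_num

lemma K_off {i j : V} (h : i ≠ j) :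
    Kmat i j = (if adj i j then 3 else -1) - qv (p4 i) (p4 j) := by
  rw [K_apply, if_neg h]; cases adj i j <;> norm_num

lemma dist63_sq {i j : V} (hi : mem63 i = true) (hj : mem63 j = true) (h : i ≠ j) :
    if adj i j then dist (pt63 i) (pt63 j) ^ 2 < 3072
      else dist (pt63 i) (pt63 j) ^ 2 = 3072 := by
  have hl := lam_eq
  have hp := lam_pos
  simp only [mem63, Bool.or_eq_true, decide_eq_true_eq] at hi hj
  have hne : p4 v0 ≠ 0 := by rw [v0, p4_special]; decide
  have h1 : p4 v0 = 1 := p4_special
  rw [dist_eq_norm, pt63, pt63, norm_sub_smul, K_diag, K_diag, K_off h]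
  rcases hi with hi | hi <;> rcases hj with hj | hj
  · have hi' : i ≠ v0 := fun e => hne (e ▸ hi)
    have hj' : j ≠ v0 := fun e => hne (e ▸ hj)
    rw [if_neg hi', if_neg hj', hi, hj]
    cases adj i j <;> norm_num [qv]
  · have hi' : i ≠ v0 := fun e => hne (e ▸ hi)
    rw [if_neg hi', if_pos hj, hi, hj, h1]
    cases adj i v0 <;> norm_num [qv] <;> nlinarith
  · have hj' : j ≠ v0 := fun e => hne (e ▸ hj)
    rw [if_pos hi, if_neg hj', hi, hj, h1]
    cases adj v0 j <;> norm_num [qv] <;> nlinarith
  · exact absurd (hi.trans hj.symm) h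

lemma card63 : Fintype.card {i : V // mem63 i = true} = 321 := by
  rw [Fintype.card_subtype]
  have hne : p4 v0 ≠ 0 := by rw [v0, p4_special]; decide
  have e : (Finset.univ.filter fun i : V => mem63 i = true) =
      insert v0 (Finset.univ.filter fun i : V => p4 i = 0) := by
    ext i; simp [mem63, or_comm]
  rw [e, Finset.card_insert_of_notMem (by simp [hne])]
  have := class_card 0
  simp only [if_true] at this
  have : (Finset.univ.filter fun i : V => p4 i = 0).card = 320 := by exact_mod_cast this
  omega

theorem bad63 : Bad 63 (63 + 1) := by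
  have hD : Real.sqrt 3072 ^ 2 = 3072 := Real.sq_sqrt (by norm_num)
  refine ⟨{i : V // mem63 i = true}, inferInstance, fun i => pt63 i.1, Real.sqrt 3072,
    by positivity, ?_, colour_pair (fun i => i.1) Subtype.val_injective _ _ (by rw [card63]; norm_num) ?_⟩
  · intro i j
    by_cases h : i = j
    · subst h; simp
    refine (sq_le_sq₀ dist_nonneg (Real.sqrt_nonneg _)).1 ?_
    have := dist63_sq i.2 j.2 (fun e => h (Subtype.ext e))
    rw [hD]
    split_ifs at this <;> linarith
  · intro i j h ha
    have := dist63_sq i.2 j.2 (fun e => h (Subtype.ext e))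
    rw [ha] at this
    exact (sq_eq_sq₀ dist_nonneg (Real.sqrt_nonneg _)).1 (this.trans hD.symm)

noncomputable def height (i : V) : ℝ := if p4 i = 3 then Real.sqrt 192 else 0

noncomputable def pt64 (i : V) : EuclideanSpace ℝ (Fin 64) := snocPt (pt i) (height i)

lemma norm_sub_pt (i j : V) :
    ‖pt i - pt j‖ ^ 2 = 96 * (Kmat i i + Kmat j j - 2 * Kmat i j) := by
  have := norm_sub_smul 1 1 i j
  simpa using this

lemma dist64_sq {i j : V} (hi : mem64 i = true) (hj : mem64 j = true) (h : i ≠ j) :
    if adj i j then dist (pt64 i) (pt64 j) ^ 2 < 3072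
      else dist (pt64 i) (pt64 j) ^ 2 = 3072 := by
  have h192 : Real.sqrt 192 ^ 2 = 192 := Real.sq_sqrt (by norm_num)
  simp only [mem64, Bool.or_eq_true, decide_eq_true_eq] at hi hj
  rw [pt64, pt64, dist_snocPt_sq, dist_eq_norm, norm_sub_pt, K_diag, K_diag, K_off h, height, height]
  rcases hi with hi | hi <;> rcases hj with hj | hj <;>
    (rw [hi, hj]; cases adj i j <;> norm_num [qv, Fin.ext_iff, h192])

lemma sphere64 {i : V} (hi : mem64 i = true) :
    dist (pt64 i) (snocPt (0 : EuclideanSpace ℝ (Fin 63)) 0) ^ 2 = 1440 := by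
  have h192 : Real.sqrt 192 ^ 2 = 192 := Real.sq_sqrt (by norm_num)
  simp only [mem64, Bool.or_eq_true, decide_eq_true_eq] at hi
  rw [pt64, dist_snocPt_sq, dist_eq_norm, sub_zero, ← real_inner_self_eq_norm_sq, inner_pt,
    K_diag, height]
  rcases hi with hi | hi <;> (rw [hi]; norm_num [qv, Fin.ext_iff, h192])

lemma card64 : Fintype.card {i : V // mem64 i = true} = 352 := by
  rw [Fintype.card_subtype]
  have e : (Finset.univ.filter fun i : V => mem64 i = true) =
      (Finset.univ.filter fun i : V => p4 i = 0) ∪ (Finset.univ.filter fun i : V => p4 i = 3) := by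
    ext i; simp [mem64]
  rw [e, Finset.card_union_of_disjoint]
  · have h0 := class_card 0
    have h3 := class_card 3
    rw [if_pos rfl] at h0
    rw [if_neg (by decide)] at h3
    have h0' : (Finset.univ.filter fun i : V => p4 i = 0).card = 320 := by exact_mod_cast h0
    have h3' : (Finset.univ.filter fun i : V => p4 i = 3).card = 32 := by exact_mod_cast h3
    omega
  · rw [Finset.disjoint_filter]
    intro i _ h1 h2
    rw [h1] at h2; exact absurd h2 (by decide)

theorem sphere_bad64 : BadOnSphere 64 (64 + 1) := by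
  have hD : Real.sqrt 3072 ^ 2 = 3072 := Real.sq_sqrt (by norm_num)
  refine ⟨{i : V // mem64 i = true}, inferInstance, fun i => pt64 i.1, snocPt 0 0, 1440,
    Real.sqrt 3072, by positivity, by rw [hD]; norm_num, fun i => sphere64 i.2, ?_,
    colour_pair (fun i => i.1) Subtype.val_injective _ _ (by rw [card64]; norm_num) ?_⟩
  · intro i j
    by_cases h : i = j
    · subst h; simp
    refine (sq_le_sq₀ dist_nonneg (Real.sqrt_nonneg _)).1 ?_
    have := dist64_sq i.2 j.2 (fun e => h (Subtype.ext e))
    rw [hD]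
    split_ifs at this <;> linarith
  · intro i j h ha
    have := dist64_sq i.2 j.2 (fun e => h (Subtype.ext e))
    rw [ha] at this
    exact (sq_eq_sq₀ dist_nonneg (Real.sqrt_nonneg _)).1 (this.trans hD.symm)

theorem bad_of_le (d : ℕ) (h : 63 ≤ d) : Bad d (d + 1) := by
  rcases Nat.eq_or_lt_of_le h with e | e
  · subst e; exact bad63
  · obtain ⟨m, rfl⟩ := Nat.exists_eq_add_of_le (show 64 ≤ d by omega)
    have H : ∀ m, BadOnSphere (64 + m) (64 + m + 1) := by
      intro m
      induction m with
      | zero => exact sphere_bad64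
      | succ m ih => exact ih.succ
    exact (H m).bad

end Vale.Agent.P052
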